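import Vale.Agent.Lib.P113.RM

/-!
Simulation of a Turing machine `M` by the injective two-stack machine `R(M)`.
-/

namespace Vale.Agent.Lib.P113

/-- the symbol cells of a stack -/
def symCells (M : Machine) (l : List ℕ) : List ℕ := l.filter (fun x => decide (x < nS M))

lemma symCells_nil (M : Machine) : symCells M [] = [] := rfl

lemma symCells_cons_lt (M : Machine) {x : ℕ} (l : List ℕ) (hx : x < nS M) :
    symCells M (x :: l) = x :: symCells M l := by
  simp [symCells, hx]

lemma symCells_cons_ge (M : Machine) {x : ℕ} (l : List ℕ) (hx : ¬ x < nS M) :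
    symCells M (x :: l) = symCells M l := by
  simp [symCells, hx]

lemma nS_pos (M : Machine) : 0 < nS M := Nat.succ_pos _

lemma gcode_ge (M : Machine) (q : ℕ) (d : Bool) (a : ℕ) : ¬ gcode M q d a < nS M := by
  unfold gcode
  have : nS M ≤ nS M + (2 * q + d.toNat) * nS M + a := by
    rw [add_assoc]; exact Nat.le_add_right _ _
  omega

lemma symCells_top_lt (M : Machine) (l : List ℕ) (h : l.headD 0 < nS M) :
    (symCells M l).getD 0 0 = l.headD 0 ∧
      ∀ k : ℕ, (symCells M l).getD (k + 1) 0 = (symCells M l.tail).getD k 0 := by
  cases l with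
  | nil => simp [symCells]
  | cons x l =>
    have hx : x < nS M := h
    rw [symCells_cons_lt M l hx]
    simp

lemma symCells_top_ge (M : Machine) (l : List ℕ) (h : ¬ l.headD 0 < nS M) :
    symCells M l = symCells M l.tail ∧ l.tail.length + 1 = l.length ∧
      l = l.headD 0 :: l.tail := by
  cases l with
  | nil => exact absurd (nS_pos M) h
  | cons x l =>
    have hx : ¬ x < nS M := h
    rw [symCells_cons_ge M l hx]
    simp

/-- the simulation relation -/
def Rel (M : Machine) (c : Cfg) (r : RCfg) : Prop :=
  r.2.1 = min c.state (nQ M) ∧ (∀ z, c.tape z ≤ M.1) ∧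
  ((r.2.2.1 = true ∧ (∀ k : ℕ, c.tape (c.head + k) = (symCells M r.2.2.2).getD k 0) ∧
      (∀ k : ℕ, c.tape (c.head - 1 - k) = (symCells M r.1).getD k 0)) ∨
   (r.2.2.1 = false ∧ (∀ k : ℕ, c.tape (c.head - k) = (symCells M r.1).getD k 0) ∧
      (∀ k : ℕ, c.tape (c.head + 1 + k) = (symCells M r.2.2.2).getD k 0)))

/-- the top cell in the direction of the head -/
def Rtop (r : RCfg) : ℕ := if r.2.2.1 then r.2.2.2.headD 0 else r.1.headD 0

/-- the length of the stack in the direction of the head -/
def Rlen (r : RCfg) : ℕ := if r.2.2.1 then r.2.2.2.length else r.1.length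

lemma delta_valid (M : Machine) (hM : M.Valid) {q a : ℕ} (hq : q < nQ M) (ha : a < nS M) :
    (delta M q a).2.1 ≤ M.1 := by
  unfold delta
  have hq' : q < M.2.length := hq
  have hrow : M.2.getD q [] = M.2[q] := by
    simp [List.getD_eq_getElem?_getD, hq']
  rw [hrow]
  obtain ⟨hlen, hall⟩ := hM (M.2[q]) (List.getElem_mem hq')
  have ha' : a < (M.2[q]).length := by rw [hlen]; exact ha
  have hcell : (M.2[q]).getD a (0, 0, false) = (M.2[q])[a] := by
    simp [List.getD_eq_getElem?_getD, ha']
  rw [hcell]
  exact hall _ (List.getElem_mem ha')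

lemma Rstep_true_skip (M : Machine) (lam rho : List ℕ) (q : ℕ) (h : ¬ rho.headD 0 < nS M) :
    Rstep M (lam, q, true, rho) = (rho.headD 0 :: lam, q, true, rho.tail) := by
  simp only [Rstep, ↓reduceIte, h]

lemma Rstep_false_skip (M : Machine) (lam rho : List ℕ) (q : ℕ) (h : ¬ lam.headD 0 < nS M) :
    Rstep M (lam, q, false, rho) = (lam.tail, q, false, lam.headD 0 :: rho) := by
  simp only [Rstep, Bool.false_eq_true, ↓reduceIte, h]

lemma Rstep_true_sym (M : Machine) (lam rho : List ℕ) (q : ℕ) (h : rho.headD 0 < nS M) :
    Rstep M (lam, q, true, rho) =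
      if (delta M q (rho.headD 0)).2.2 then
        ((delta M q (rho.headD 0)).2.1 :: gcode M q true (rho.headD 0) :: lam,
          min (delta M q (rho.headD 0)).1 (nQ M), true, rho.tail)
      else (lam, min (delta M q (rho.headD 0)).1 (nQ M), false,
        (delta M q (rho.headD 0)).2.1 :: gcode M q true (rho.headD 0) :: rho.tail) := by
  simp only [Rstep, ↓reduceIte, h]

lemma Rstep_false_sym (M : Machine) (lam rho : List ℕ) (q : ℕ) (h : lam.headD 0 < nS M) :
    Rstep M (lam, q, false, rho) =
      if (delta M q (lam.headD 0)).2.2 then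
        ((delta M q (lam.headD 0)).2.1 :: gcode M q false (lam.headD 0) :: lam.tail,
          min (delta M q (lam.headD 0)).1 (nQ M), true, rho)
      else (lam.tail, min (delta M q (lam.headD 0)).1 (nQ M), false,
        (delta M q (lam.headD 0)).2.1 :: gcode M q false (lam.headD 0) :: rho) := by
  simp only [Rstep, Bool.false_eq_true, ↓reduceIte, h]

lemma Rel_skip (M : Machine) (c : Cfg) (r : RCfg) (h : Rel M c r) (htop : ¬ Rtop r < nS M) :
    Rel M c (Rstep M r) ∧ Rlen (Rstep M r) + 1 = Rlen r := by
  obtain ⟨lam, q, d, rho⟩ := r
  obtain ⟨hst, htape, hrel⟩ := h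
  cases d with
  | true =>
    simp only [Rtop, if_true] at htop
    obtain ⟨h1, h2, h3⟩ := symCells_top_ge M rho htop
    rw [Rstep_true_skip M lam rho q htop]
    refine ⟨⟨hst, htape, Or.inl ⟨rfl, ?_, ?_⟩⟩, ?_⟩
    · rcases hrel with ⟨_, ha, _⟩ | ⟨hd, _⟩
      · intro k
        rw [ha k]
        simp only
        rw [h1]
      · exact absurd hd (by simp)
    · rcases hrel with ⟨_, _, hb⟩ | ⟨hd, _⟩
      · intro k
        rw [hb k]
        simp only
        rw [symCells_cons_ge M lam htop]
      · exact absurd hd (by simp)
    · simpa [Rlen] using h2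
  | false =>
    simp only [Rtop, Bool.false_eq_true, if_false] at htop
    obtain ⟨h1, h2, h3⟩ := symCells_top_ge M lam htop
    rw [Rstep_false_skip M lam rho q htop]
    refine ⟨⟨hst, htape, Or.inr ⟨rfl, ?_, ?_⟩⟩, ?_⟩
    · rcases hrel with ⟨hd, _⟩ | ⟨_, ha, _⟩
      · exact absurd hd (by simp)
      · intro k
        rw [ha k]
        simp only
        rw [h1]
    · rcases hrel with ⟨hd, _⟩ | ⟨_, _, hb⟩
      · exact absurd hd (by simp)
      · intro k
        rw [hb k]
        simp only
        rw [symCells_cons_ge M rho htop]
    · simpa [Rlen] using h2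

lemma step_eq (M : Machine) (c : Cfg) :
    M.step c = ⟨(delta M c.state (c.tape c.head)).1,
      Function.update c.tape c.head (delta M c.state (c.tape c.head)).2.1,
      if (delta M c.state (c.tape c.head)).2.2 then c.head + 1 else c.head - 1⟩ := rfl

lemma symCells_push (M : Machine) {a : ℕ} (ha : a ≤ M.1) (q : ℕ) (d : Bool) (t : ℕ)
    (l : List ℕ) : symCells M (a :: gcode M q d t :: l) = a :: symCells M l := by
  rw [symCells_cons_lt M _ (Nat.lt_succ_of_le ha), symCells_cons_ge M _ (gcode_ge M q d t)]

lemma Rel_sim (M : Machine) (hM : M.Valid) (c : Cfg) (r : RCfg) (h : Rel M c r)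
    (hq : c.state < nQ M) (htop : Rtop r < nS M) : Rel M (M.step c) (Rstep M r) := by
  obtain ⟨lam, q, d, rho⟩ := r
  obtain ⟨hst, htape, hrel⟩ := h
  have hqc : q = c.state := by
    have : q = min c.state (nQ M) := hst
    rw [this]
    exact min_eq_left hq.le
  subst hqc
  rw [step_eq]
  cases d with
  | true =>
    simp only [Rtop, if_true] at htop
    obtain ⟨h0, hs⟩ := symCells_top_lt M rho htop
    rcases hrel with ⟨_, ha, hb⟩ | ⟨hd, _⟩
    swap
    · exact absurd hd (by simp)
    simp only at ha hb
    have hhead : c.tape c.head = rho.headD 0 := by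
      have := ha 0
      rw [h0] at this
      simpa using this
    rw [hhead, Rstep_true_sym M lam rho _ htop]
    have hval := delta_valid M hM hq htop
    set e := delta M c.state (rho.headD 0) with he
    have hbound : ∀ z, Function.update c.tape c.head e.2.1 z ≤ M.1 := by
      intro z
      by_cases hz : z = c.head
      · rw [hz, Function.update_self]; exact hval
      · rw [Function.update_of_ne hz]; exact htape z
    cases hdir : e.2.2 with
    | true =>
      simp only [if_true]
      refine ⟨rfl, hbound, Or.inl ⟨rfl, ?_, ?_⟩⟩
      · intro k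
        simp only
        rw [Function.update_of_ne (by omega), ← hs k, ← ha (k + 1)]
        congr 1
        push_cast
        ring
      · intro k
        simp only
        rw [symCells_push M hval]
        cases k with
        | zero => simp
        | succ k =>
          rw [Function.update_of_ne (by push_cast; omega), List.getD_cons_succ, ← hb k]
          congr 1
          push_cast
          ring
    | false =>
      simp only [Bool.false_eq_true, if_false]
      refine ⟨rfl, hbound, Or.inr ⟨rfl, ?_, ?_⟩⟩
      · intro k
        simp only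
        rw [Function.update_of_ne (by omega), ← hb k]
      · intro k
        simp only
        rw [symCells_push M hval]
        cases k with
        | zero => simp
        | succ k =>
          rw [Function.update_of_ne (by push_cast; omega), List.getD_cons_succ, ← hs k,
            ← ha (k + 1)]
          congr 1
          push_cast
          ring
  | false =>
    simp only [Rtop, Bool.false_eq_true, if_false] at htop
    obtain ⟨h0, hs⟩ := symCells_top_lt M lam htop
    rcases hrel with ⟨hd, _⟩ | ⟨_, ha, hb⟩
    · exact absurd hd (by simp)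
    simp only at ha hb
    have hhead : c.tape c.head = lam.headD 0 := by
      have := ha 0
      rw [h0] at this
      simpa using this
    rw [hhead, Rstep_false_sym M lam rho _ htop]
    have hval := delta_valid M hM hq htop
    set e := delta M c.state (lam.headD 0) with he
    have hbound : ∀ z, Function.update c.tape c.head e.2.1 z ≤ M.1 := by
      intro z
      by_cases hz : z = c.head
      · rw [hz, Function.update_self]; exact hval
      · rw [Function.update_of_ne hz]; exact htape z
    cases hdir : e.2.2 with
    | true =>
      simp only [if_true]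
      refine ⟨rfl, hbound, Or.inl ⟨rfl, ?_, ?_⟩⟩
      · intro k
        simp only
        rw [Function.update_of_ne (by omega), ← hb k]
      · intro k
        simp only
        rw [symCells_push M hval]
        cases k with
        | zero => simp
        | succ k =>
          rw [Function.update_of_ne (by push_cast; omega), List.getD_cons_succ, ← hs k,
            ← ha (k + 1)]
          congr 1
          push_cast
          ring
    | false =>
      simp only [Bool.false_eq_true, if_false]
      refine ⟨rfl, hbound, Or.inr ⟨rfl, ?_, ?_⟩⟩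
      · intro k
        simp only
        rw [Function.update_of_ne (by omega), ← hs k, ← ha (k + 1)]
        congr 1
        push_cast
        ring
      · intro k
        simp only
        rw [symCells_push M hval]
        cases k with
        | zero => simp
        | succ k =>
          rw [Function.update_of_ne (by push_cast; omega), List.getD_cons_succ, ← hb k]
          congr 1
          push_cast
          ring

lemma Rel_init (M : Machine) (w : List ℕ) (hw : ∀ s ∈ w, s ≤ M.1) :
    Rel M (initCfg w) (Rinit M w) := by
  have hsym : symCells M w = w := by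
    unfold symCells
    rw [List.filter_eq_self]
    intro a ha
    exact decide_eq_true (Nat.lt_succ_of_le (hw a ha))
  have hget : ∀ k : ℕ, w.getD k 0 ≤ M.1 := by
    intro k
    by_cases hk : k < w.length
    · have : w.getD k 0 = w[k] := by simp [List.getD_eq_getElem?_getD, hk]
      rw [this]
      exact hw _ (List.getElem_mem hk)
    · have : w.getD k 0 = 0 := by
        simp [List.getD_eq_getElem?_getD, not_lt.mp hk]
      rw [this]
      exact Nat.zero_le _
  refine ⟨rfl, ?_, Or.inl ⟨rfl, ?_, ?_⟩⟩
  · intro z
    simp only [initCfg]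
    split_ifs
    · exact hget _
    · exact Nat.zero_le _
  · intro k
    simp only [initCfg, Rinit, hsym]
    simp
  · intro k
    simp only [initCfg, Rinit, symCells_nil]
    have : ¬ (0 : ℤ) ≤ 0 - 1 - (k : ℤ) := by omega
    rw [if_neg this]
    simp

/-- after finitely many skips one step of `M` is simulated -/
lemma exists_sim (M : Machine) (hM : M.Valid) (c : Cfg) (hq : c.state < nQ M) :
    ∀ (n : ℕ) (r : RCfg), Rlen r = n → Rel M c r →
      ∃ s : ℕ, Rel M (M.step c) ((Rstep M)^[s] r) := by
  intro n
  induction n with
  | zero =>
    intro r hlen hrel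
    refine ⟨1, ?_⟩
    apply Rel_sim M hM c r hrel hq
    by_contra htop
    have := (Rel_skip M c r hrel htop).2
    omega
  | succ n ih =>
    intro r hlen hrel
    by_cases htop : Rtop r < nS M
    · exact ⟨1, Rel_sim M hM c r hrel hq htop⟩
    · obtain ⟨h1, h2⟩ := Rel_skip M c r hrel htop
      obtain ⟨s, hs⟩ := ih (Rstep M r) (by omega) h1
      exact ⟨s + 1, by rwa [Function.iterate_succ_apply]⟩

theorem RInv_init (M : Machine) (w : List ℕ) (hw : ∀ s ∈ w, s ≤ M.1) : RInv M (Rinit M w) := by
  refine ⟨by simp [Rinit], by simp [Rinit], ?_⟩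
  intro x hx
  have h1 : x ≤ M.1 := hw x hx
  have h2 : nS M ≤ nC M := Nat.le_add_right _ _
  have h3 : x < nS M := Nat.lt_succ_of_le h1
  omega

lemma gcode_lt (M : Machine) {q a : ℕ} (d : Bool) (hq : q < nQ M) (ha : a < nS M) :
    gcode M q d a < nC M := by
  unfold gcode nC
  have h1 : 2 * q + d.toNat + 1 ≤ 2 * nQ M := by
    cases d <;> simp <;> omega
  have h2 : (2 * q + d.toNat + 1) * nS M ≤ 2 * nQ M * nS M := Nat.mul_le_mul_right _ h1
  have h3 : (2 * q + d.toNat + 1) * nS M = (2 * q + d.toNat) * nS M + nS M := by ring
  omega

theorem RInv_step (M : Machine) (hM : M.Valid) (c : RCfg) (hc : RInv M c) (hq : c.2.1 < nQ M) :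
    RInv M (Rstep M c) := by
  obtain ⟨lam, q, d, rho⟩ := c
  obtain ⟨hl, hst, hr⟩ := hc
  simp only at hl hst hr hq
  have hSC : nS M ≤ nC M := Nat.le_add_right _ _
  have htl : ∀ x ∈ lam.tail, x < nC M := fun x hx => hl x (List.mem_of_mem_tail hx)
  have htr : ∀ x ∈ rho.tail, x < nC M := fun x hx => hr x (List.mem_of_mem_tail hx)
  cases d with
  | true =>
    by_cases htop : rho.headD 0 < nS M
    · rw [Rstep_true_sym M lam rho q htop]
      have hval := delta_valid M hM hq htop
      have hg := gcode_lt M true hq htop
      have hv : (delta M q (rho.headD 0)).2.1 < nC M :=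
        lt_of_lt_of_le (Nat.lt_succ_of_le hval) hSC
      split_ifs
      · refine ⟨?_, min_le_right _ _, htr⟩
        intro x hx
        simp only [List.mem_cons] at hx
        rcases hx with rfl | rfl | hx
        · exact hv
        · exact hg
        · exact hl x hx
      · refine ⟨hl, min_le_right _ _, ?_⟩
        intro x hx
        simp only [List.mem_cons] at hx
        rcases hx with rfl | rfl | hx
        · exact hv
        · exact hg
        · exact htr x hx
    · rw [Rstep_true_skip M lam rho q htop]
      obtain ⟨_, _, h3⟩ := symCells_top_ge M rho htop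
      refine ⟨?_, hst, htr⟩
      intro x hx
      simp only [List.mem_cons] at hx
      rcases hx with rfl | hx
      · apply hr
        rw [h3]
        simp
      · exact hl x hx
  | false =>
    by_cases htop : lam.headD 0 < nS M
    · rw [Rstep_false_sym M lam rho q htop]
      have hval := delta_valid M hM hq htop
      have hg := gcode_lt M false hq htop
      have hv : (delta M q (lam.headD 0)).2.1 < nC M :=
        lt_of_lt_of_le (Nat.lt_succ_of_le hval) hSC
      split_ifs
      · refine ⟨?_, min_le_right _ _, hr⟩
        intro x hx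
        simp only [List.mem_cons] at hx
        rcases hx with rfl | rfl | hx
        · exact hv
        · exact hg
        · exact htl x hx
      · refine ⟨htl, min_le_right _ _, ?_⟩
        intro x hx
        simp only [List.mem_cons] at hx
        rcases hx with rfl | rfl | hx
        · exact hv
        · exact hg
        · exact hr x hx
    · rw [Rstep_false_skip M lam rho q htop]
      obtain ⟨_, _, h3⟩ := symCells_top_ge M lam htop
      refine ⟨htl, hst, ?_⟩
      intro x hx
      simp only [List.mem_cons] at hx
      rcases hx with rfl | hx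
      · apply hl
        rw [h3]
        simp
      · exact hr x hx

/-- `M` halts on `w` iff `R(M)` reaches the halting state. -/
theorem halts_iff_R (M : Machine) (hM : M.Valid) (w : List ℕ) (hw : ∀ s ∈ w, s ≤ M.1) :
    M.HaltsOn w ↔ ∃ k : ℕ, ((Rstep M)^[k] (Rinit M w)).2.1 = nQ M := by
  classical
  constructor
  · intro h
    -- least halting time
    have hmin : ∀ j, j < Nat.find h → ((M.step)^[j] (initCfg w)).state < nQ M := by
      intro j hj
      exact not_le.mp (Nat.find_min h hj)
    have key : ∀ j, j ≤ Nat.find h →
        ∃ k, Rel M ((M.step)^[j] (initCfg w)) ((Rstep M)^[k] (Rinit M w)) := by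
      intro j
      induction j with
      | zero => intro _; exact ⟨0, Rel_init M w hw⟩
      | succ j ih =>
        intro hj
        obtain ⟨k, hk⟩ := ih (by omega)
        obtain ⟨s, hs⟩ := exists_sim M hM _ (hmin j (by omega)) _ _ rfl hk
        refine ⟨s + k, ?_⟩
        rw [Function.iterate_succ_apply', Function.iterate_add_apply]
        exact hs
    obtain ⟨k, hk⟩ := key _ le_rfl
    refine ⟨k, ?_⟩
    rw [hk.1]
    exact min_eq_right (Nat.find_spec h)
  · intro h
    have hmin : ∀ i, i < Nat.find h → ((Rstep M)^[i] (Rinit M w)).2.1 ≠ nQ M :=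
      fun i hi => Nat.find_min h hi
    have key : ∀ i, i ≤ Nat.find h →
        ∃ j, Rel M ((M.step)^[j] (initCfg w)) ((Rstep M)^[i] (Rinit M w)) := by
      intro i
      induction i with
      | zero => intro _; exact ⟨0, Rel_init M w hw⟩
      | succ i ih =>
        intro hi
        obtain ⟨j, hj⟩ := ih (by omega)
        have hne := hmin i (by omega)
        have hq : ((M.step)^[j] (initCfg w)).state < nQ M := by
          by_contra hcon
          apply hne
          rw [hj.1]
          exact min_eq_right (not_lt.mp hcon)
        rw [Function.iterate_succ_apply']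
        by_cases htop : Rtop ((Rstep M)^[i] (Rinit M w)) < nS M
        · refine ⟨j + 1, ?_⟩
          rw [Function.iterate_succ_apply']
          exact Rel_sim M hM _ _ hj hq htop
        · exact ⟨j, (Rel_skip M _ _ hj htop).1⟩
    obtain ⟨j, hj⟩ := key _ le_rfl
    refine ⟨j, ?_⟩
    have h1 := Nat.find_spec h
    rw [hj.1] at h1
    have : nQ M ≤ ((M.step)^[j] (initCfg w)).state := by
      by_contra hcon
      rw [min_eq_left (not_le.mp hcon).le] at h1
      omega
    exact this

end Vale.Agent.Lib.P113
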