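import Vale.Agent.Lib.P113_helper7.Basic1D

/-!
Trajectories of the time-switched shear flows.
-/

namespace Vale.Agent.Lib.P113

open Set Filter Topology

lemma pk_ne_pm (c : ℕ) : pk c ≠ pm c := by
  unfold pk pm
  split_ifs <;> decide

lemma pl_ne_pm (c : ℕ) : pl c ≠ pm c := by
  unfold pl pm
  split_ifs <;> decide

lemma shearField_apply_pk (S : Shear) (z : R3) : shearField S z (pk S.1) = 0 := by
  unfold shearField
  rw [Pi.single_eq_of_ne (pk_ne_pm S.1)]

lemma shearField_apply_pl (S : Shear) (z : R3) : shearField S z (pl S.1) = 0 := by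
  unfold shearField
  rw [Pi.single_eq_of_ne (pl_ne_pm S.1)]

/-- the field of a phase only depends on the coordinates along which it never moves -/
lemma phase_eq_of_agree (D : FlowData) (n : ℤ) (x y : R3)
    (h : ∀ i, (∀ z, phase D n z i = 0) → y i = x i) : phase D n y = phase D n x := by
  by_cases h1 : n < 0
  · simp only [phase, if_pos h1]
  by_cases h2 : n = 0
  · simp only [phase, if_neg h1, if_pos h2]
  have hph : ∀ z, phase D n z =
      shearField (D.2.getD ((n.toNat - 1) % D.2.length) (0, [])) z := by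
    intro z
    simp only [phase, if_neg h1, if_neg h2]
  set S := D.2.getD ((n.toNat - 1) % D.2.length) (0, []) with hS
  rw [hph, hph]
  have hk : y (pk S.1) = x (pk S.1) := h _ (fun z => by rw [hph]; exact shearField_apply_pk S z)
  have hl : y (pl S.1) = x (pl S.1) := h _ (fun z => by rw [hph]; exact shearField_apply_pl S z)
  unfold shearField
  rw [hk, hl]

lemma phase_shift (D : FlowData) (n : ℤ) (x : R3) (s : ℝ) :
    phase D n (x + s • phase D n x) = phase D n x := by
  apply phase_eq_of_agree
  intro i hi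
  simp [hi x]

/-- on `[n, n+1]` the velocity is `th (t - n) • phase n` -/
lemma vel_eq_on (D : FlowData) (n : ℤ) (t : ℝ) (ht : t ∈ Icc (n : ℝ) (n + 1)) (x : R3) :
    vel D t x = th (t - n) • phase D n x := by
  rcases eq_or_lt_of_le ht.2 with h | h
  · -- t = n + 1
    have h1 : Int.fract t = 0 := by
      rw [h]
      have : ((n : ℝ) + 1) = ((n + 1 : ℤ) : ℝ) := by push_cast; ring
      rw [this, Int.fract_intCast]
    unfold vel
    rw [h1, th_eq_zero (Or.inl (by norm_num)), h]
    have : (n : ℝ) + 1 - n = 1 := by ring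
    rw [this, th_eq_zero (Or.inr (by norm_num))]
    simp
  · have h1 : ⌊t⌋ = n := Int.floor_eq_iff.mpr ⟨ht.1, h⟩
    unfold vel
    rw [Int.fract, h1]

/-- every trajectory follows the phase on `[n, n+1]` -/
lemma trajectory_step (D : FlowData) (a : R3) (X : ℝ → R3) (hX : IsTrajectory (vel D) a X)
    (n : ℕ) (t : ℝ) (ht : t ∈ Icc (n : ℝ) (n + 1)) :
    X t = X n + sgt (t - n) • phase D n (X n) := by
  have hn0 : (0 : ℝ) ≤ n := Nat.cast_nonneg n
  have hder : ∀ s ∈ Icc (n : ℝ) (n + 1),
      HasDerivWithinAt X (th (s - n) • phase D n (X s)) (Ici s) s := by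
    intro s hs
    have h0 : 0 ≤ s := hn0.trans hs.1
    have h1 := hX.2 s h0
    have h2 := vel_eq_on D n s (by simpa using hs) (X s)
    rw [h2] at h1
    simpa using h1.mono (Ici_subset_Ici.mpr h0)
  have hcont : ContinuousOn X (Icc (n : ℝ) (n + 1)) := by
    intro s hs
    have h0 : 0 ≤ s := hn0.trans hs.1
    exact ((hX.2 s h0).continuousWithinAt).mono (fun y hy => hn0.trans hy.1)
  -- the frozen coordinates are constant
  have hfrozen : ∀ s ∈ Icc (n : ℝ) (n + 1), phase D n (X s) = phase D n (X n) := by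
    intro s hs
    apply phase_eq_of_agree
    intro i hi
    have hci : ContinuousOn (fun y => X y i) (Icc (n : ℝ) (n + 1)) :=
      (continuous_apply i).comp_continuousOn hcont
    refine constant_of_has_deriv_right_zero hci ?_ s hs
    intro y hy
    have h1 := hasDerivWithinAt_pi.mp (hder y ⟨hy.1, hy.2.le⟩) i
    simpa [hi] using h1
  -- subtract the explicit solution
  have hg : ∀ s ∈ Icc (n : ℝ) (n + 1),
      X s - sgt (s - n) • phase D n (X n) = X n - sgt ((n : ℝ) - n) • phase D n (X n) := by
    have hsgtc : Continuous fun s : ℝ => sgt (s - n) :=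
      sgt_contDiff.continuous.comp (continuous_id.sub continuous_const)
    refine constant_of_has_deriv_right_zero (hcont.sub (hsgtc.smul continuous_const).continuousOn) ?_
    intro y hy
    have h1 := hder y ⟨hy.1, hy.2.le⟩
    rw [hfrozen y ⟨hy.1, hy.2.le⟩] at h1
    have h2 : HasDerivAt (fun s : ℝ => sgt (s - n)) (th (y - n)) y := by
      simpa using (hasDerivAt_sgt (y - n)).comp_sub_const y (n : ℝ)
    have h3 := h1.sub (h2.smul_const (phase D n (X n))).hasDerivWithinAt
    rw [sub_self] at h3
    exact h3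
  have h4 := hg t ht
  have h5 : sgt ((n : ℝ) - n) = 0 := by
    rw [sub_self]
    exact sgt_of_le (by norm_num)
  rw [h5, zero_smul, sub_zero] at h4
  exact sub_eq_iff_eq_add.mp h4

lemma trajectory_nat (D : FlowData) (a : R3) (X : ℝ → R3) (hX : IsTrajectory (vel D) a X)
    (n : ℕ) : X n = pos D a n := by
  induction n with
  | zero => simpa [pos] using hX.1
  | succ n ih =>
    have h := trajectory_step D a X hX n ((n : ℝ) + 1) ⟨by linarith, le_rfl⟩
    have h1 : (n : ℝ) + 1 - n = 1 := by ring
    rw [h1, sgt_of_ge (by norm_num), one_smul, ih] at h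
    simp only [pos]
    push_cast
    exact h

/-- every trajectory follows the phases: during `[n, n+1]` it moves along the straight segment
from `pos D a n` to `pos D a (n+1)`. -/
theorem trajectory_formula (D : FlowData) (a : R3) (X : ℝ → R3) (hX : IsTrajectory (vel D) a X)
    (n : ℕ) (t : ℝ) (ht : t ∈ Icc (n : ℝ) (n + 1)) :
    X t = pos D a n + sgt (t - n) • phase D n (pos D a n) := by
  rw [trajectory_step D a X hX n t ht, trajectory_nat D a X hX n]

/-- the explicit motion during the `n`-th phase -/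
noncomputable def segm (D : FlowData) (a : R3) (n : ℕ) (s : ℝ) : R3 :=
  pos D a n + sgt (s - n) • phase D n (pos D a n)

lemma segm_of_le (D : FlowData) (a : R3) (n : ℕ) {s : ℝ} (h : s ≤ n + 1 / 4) :
    segm D a n s = pos D a n := by
  unfold segm
  rw [sgt_of_le (by linarith), zero_smul, add_zero]

lemma segm_of_ge (D : FlowData) (a : R3) (n : ℕ) {s : ℝ} (h : (n : ℝ) + 3 / 4 ≤ s) :
    segm D a n s = pos D a (n + 1) := by
  unfold segm
  rw [sgt_of_ge (by linarith), one_smul]
  rfl

/-- the explicit trajectory -/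
noncomputable def traj (D : FlowData) (a : R3) (t : ℝ) : R3 := segm D a ⌊t⌋₊ t

lemma traj_eq_segm (D : FlowData) (a : R3) (n : ℕ) {s : ℝ} (h1 : (n : ℝ) - 1 / 4 < s)
    (h2 : s < (n : ℝ) + 5 / 4) : traj D a s = segm D a n s := by
  unfold traj
  rcases lt_or_ge s n with hlt | hge
  · cases n with
    | zero =>
      have : ⌊s⌋₊ = 0 := Nat.floor_of_nonpos (by push_cast at hlt; exact hlt.le)
      rw [this]
    | succ m =>
      push_cast at h1 hlt
      have hs0 : 0 ≤ s := by
        have : (0 : ℝ) ≤ m := Nat.cast_nonneg m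
        linarith
      have : ⌊s⌋₊ = m := (Nat.floor_eq_iff hs0).mpr ⟨by linarith, hlt⟩
      rw [this, segm_of_ge D a m (by linarith), segm_of_le D a (m + 1) (by push_cast; linarith)]
  · have hs0 : 0 ≤ s := (Nat.cast_nonneg n).trans hge
    rcases lt_or_ge s (n + 1) with hlt | hge'
    · have : ⌊s⌋₊ = n := (Nat.floor_eq_iff hs0).mpr ⟨hge, hlt⟩
      rw [this]
    · have : ⌊s⌋₊ = n + 1 := (Nat.floor_eq_iff hs0).mpr ⟨by push_cast; exact hge', by
        push_cast; linarith⟩
      rw [this, segm_of_le D a (n + 1) (by push_cast; linarith), segm_of_ge D a n (by linarith)]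

lemma hasDerivAt_segm (D : FlowData) (a : R3) (n : ℕ) (t : ℝ) :
    HasDerivAt (segm D a n) (th (t - n) • phase D n (pos D a n)) t := by
  have h2 : HasDerivAt (fun s : ℝ => sgt (s - n)) (th (t - n)) t := by
    simpa using (hasDerivAt_sgt (t - n)).comp_sub_const t (n : ℝ)
  have h3 := (h2.smul_const (phase D n (pos D a n))).const_add (pos D a n)
  exact h3

theorem exists_trajectory (D : FlowData) (a : R3) : ∃ X, IsTrajectory (vel D) a X := by
  refine ⟨traj D a, ?_, ?_⟩
  · have h := traj_eq_segm D a 0 (s := 0) (by norm_num) (by norm_num)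
    rw [h, segm_of_le D a 0 (by norm_num)]
    rfl
  · intro t ht
    set n := ⌊t⌋₊ with hn
    have h1 : (n : ℝ) ≤ t := Nat.floor_le ht
    have h2 : t < (n : ℝ) + 1 := Nat.lt_floor_add_one t
    have hev : traj D a =ᶠ[𝓝 t] segm D a n := by
      have hopen : Ioo ((n : ℝ) - 1 / 4) ((n : ℝ) + 5 / 4) ∈ 𝓝 t :=
        Ioo_mem_nhds (by linarith) (by linarith)
      filter_upwards [hopen] with s hs
      exact traj_eq_segm D a n hs.1 hs.2
    have hd := (hasDerivAt_segm D a n t).congr_of_eventuallyEq hev
    have hv : vel D t (traj D a t) = th (t - n) • phase D n (pos D a n) := by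
      have h3 := vel_eq_on D n t (by simpa using ⟨h1, h2.le⟩) (traj D a t)
      rw [h3, hev.eq_of_nhds]
      unfold segm
      rw [phase_shift]
      simp
    rw [hv]
    exact hd.hasDerivWithinAt

end Vale.Agent.Lib.P113
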