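import Vale.Agent.Lib.P113.PRReal

/-!
Primitive recursive approximation of the exponential at negative rationals and of the
smooth transition function at rationals.
-/

namespace Vale.Agent.Lib.P113

variable {α : Type*} [Primcodable α]

theorem pr_factorial0 : Primrec Nat.factorial := by
  have h : Primrec (Nat.rec (motive := fun _ => ℕ) 1 (fun k ih => (k + 1) * ih)) :=
    Primrec.nat_rec₁ 1 (by
      have : Primrec (fun p : ℕ × ℕ => (p.1 + 1) * p.2) := by fun_prop
      exact this)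
  refine h.of_eq fun n => ?_
  induction n with
  | zero => rfl
  | succ k ih => simp only [Nat.factorial_succ, ← ih]

@[fun_prop] theorem pr_factorial {f : α → ℕ} (hf : Primrec f) :
    Primrec (fun x => (f x).factorial) := pr_factorial0.comp hf

/-- Taylor polynomial of the exponential, evaluated exactly. -/
def expTaylor (z : Q) (N : ℕ) : Q :=
  qsum ((List.range N).map (fun m => qdiv (qpow z m) (qnat m.factorial)))

@[fun_prop] theorem pr_expTaylor {f : α → Q} {g : α → ℕ} (hf : Primrec f) (hg : Primrec g) :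
    Primrec (fun x => expTaylor (f x) (g x)) := by unfold expTaylor; fun_prop

theorem qval_expTaylor (z : Q) (N : ℕ) :
    qval (expTaylor z N) = ∑ m ∈ Finset.range N, (qval z) ^ m / (m.factorial : ℝ) := by
  unfold expTaylor
  rw [qval_qsum]
  induction N with
  | zero => simp
  | succ N ih =>
    rw [List.range_succ, List.map_append, List.map_append, List.sum_append, ih,
      Finset.sum_range_succ]
    simp

theorem exp_taylor_err (n : ℕ) :
    (((n + 2 : ℕ).succ : ℝ) / (((n + 2 : ℕ).factorial : ℝ) * ((n + 2 : ℕ) : ℝ)))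
      ≤ 1 / ((n : ℝ) + 1) := by
  have h1 : ((n + 2 : ℕ) : ℝ) ≤ ((n + 2 : ℕ).factorial : ℝ) := by
    exact_mod_cast Nat.self_le_factorial (n + 2)
  have h2 : (0 : ℝ) < ((n + 2 : ℕ) : ℝ) := by positivity
  calc (((n + 2 : ℕ).succ : ℝ) / (((n + 2 : ℕ).factorial : ℝ) * ((n + 2 : ℕ) : ℝ)))
      ≤ (((n + 2 : ℕ).succ : ℝ) / (((n + 2 : ℕ) : ℝ) * ((n + 2 : ℕ) : ℝ))) := by gcongr
    _ ≤ 1 / ((n : ℝ) + 1) := by
      rw [div_le_div_iff₀ (by positivity) (by positivity)]
      push_cast
      nlinarith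

/-- The exponential at primitive recursive rationals of absolute value at most one. -/
theorem prreal_exp_unit {z : α → Q} (hz : Primrec z) (h1 : ∀ a, |qval (z a)| ≤ 1) :
    PRReal (fun a => Real.exp (qval (z a))) := by
  refine ⟨fun p => expTaylor (z p.1) (p.2 + 2), by fun_prop, fun a n => ?_⟩
  simp only [qval_expTaylor]
  have h := Real.exp_bound (h1 a) (n := n + 2) (by omega)
  refine h.trans ?_
  have h2 : |qval (z a)| ^ (n + 2) ≤ 1 := pow_le_one₀ (abs_nonneg _) (h1 a)
  have h3 := exp_taylor_err n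
  have h4 : (0 : ℝ) ≤ (((n + 2 : ℕ).succ : ℝ) / (((n + 2 : ℕ).factorial : ℝ) * ((n + 2 : ℕ) : ℝ))) := by
    positivity
  calc _ ≤ 1 * (((n + 2 : ℕ).succ : ℝ) / (((n + 2 : ℕ).factorial : ℝ) * ((n + 2 : ℕ) : ℝ))) := by
        gcongr
    _ ≤ _ := by rw [one_mul]; exact h3

theorem prreal_exp_neg : PRReal (fun p : ℕ × ℕ => Real.exp (-((p.1 : ℝ) / ((p.2 : ℝ) + 1)))) := by
  let z : ℕ × ℕ → Q := fun p => (0, p.1, p.2 * p.1 + p.2 + p.1)
  have hz : Primrec z := by fun_prop
  have hval : ∀ p, qval (z p) = -((p.1 : ℝ) / (((p.2 : ℝ) + 1) * ((p.1 : ℝ) + 1))) := by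
    intro p
    simp only [qval, z]
    push_cast
    have : (p.2 : ℝ) * p.1 + p.2 + p.1 + 1 = ((p.2 : ℝ) + 1) * ((p.1 : ℝ) + 1) := by ring
    rw [this]; ring
  have hnn : ∀ p : ℕ × ℕ, 0 ≤ (p.1 : ℝ) / (((p.2 : ℝ) + 1) * ((p.1 : ℝ) + 1)) := by
    intro p; positivity
  have hle : ∀ p : ℕ × ℕ, (p.1 : ℝ) / (((p.2 : ℝ) + 1) * ((p.1 : ℝ) + 1)) ≤ 1 := by
    intro p
    rw [div_le_one (by positivity)]
    have h1 : (0 : ℝ) ≤ p.1 := by positivity
    have h2 : (0 : ℝ) ≤ p.2 := by positivity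
    nlinarith
  have h1 : ∀ p, |qval (z p)| ≤ 1 := by
    intro p
    rw [hval, abs_neg, abs_of_nonneg (hnn p)]
    exact hle p
  have hE := prreal_exp_unit hz h1
  have hP := PRReal.pow_unit hE (fun p => ⟨(Real.exp_pos _).le, by
    rw [Real.exp_le_one_iff, hval]; linarith [hnn p]⟩) (k := fun p => p.1 + 1) (by fun_prop)
  refine hP.of_eq fun p => ?_
  rw [← Real.exp_nat_mul, hval]
  congr 1
  push_cast
  field_simp

/-- numerator and shifted denominator of the absolute value -/
def qabsfrac (r : Q) : ℕ × ℕ := ((r.1 - r.2.1) + (r.2.1 - r.1), r.2.2)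

@[fun_prop] theorem pr_qabsfrac {f : α → Q} (hf : Primrec f) :
    Primrec (fun x => qabsfrac (f x)) := by unfold qabsfrac; fun_prop

theorem qabsfrac_val (r : Q) :
    ((qabsfrac r).1 : ℝ) / (((qabsfrac r).2 : ℝ) + 1) = |qval r| := by
  have h1 := qden_pos r
  simp only [qabsfrac, qval]
  rw [abs_div, abs_of_pos h1]
  congr 1
  rcases le_total r.1 r.2.1 with h | h
  · have : r.1 - r.2.1 = 0 := by omega
    rw [this, zero_add, Nat.cast_sub h, abs_of_nonpos]
    · ring
    · have : (r.1 : ℝ) ≤ r.2.1 := by exact_mod_cast h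
      linarith
  · have : r.2.1 - r.1 = 0 := by omega
    rw [this, add_zero, Nat.cast_sub h, abs_of_nonneg]
    have : (r.2.1 : ℝ) ≤ r.1 := by exact_mod_cast h
    linarith

theorem prreal_exp_neg_abs : PRReal (fun r : Q => Real.exp (-|qval r|)) :=
  (prreal_exp_neg.comp (h := qabsfrac) (by fun_prop)).of_eq fun r => by rw [qabsfrac_val]

theorem smoothTransition_mid {x : ℝ} (h0 : 0 < x) (h1 : x < 1) :
    Real.smoothTransition x = 1 / (1 + Real.exp (x⁻¹ - (1 - x)⁻¹)) := by
  have h2 : 0 < 1 - x := by linarith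
  unfold Real.smoothTransition
  rw [expNegInvGlue, expNegInvGlue, if_neg (not_le.2 h0), if_neg (not_le.2 h2)]
  have e : Real.exp (-(1 - x)⁻¹) = Real.exp (-x⁻¹) * Real.exp (x⁻¹ - (1 - x)⁻¹) := by
    rw [← Real.exp_add]; congr 1; ring
  rw [e]
  have hp := Real.exp_pos (-x⁻¹)
  have hq := Real.exp_pos (x⁻¹ - (1 - x)⁻¹)
  field_simp

theorem prreal_sg : PRReal (fun r : Q => Real.smoothTransition (qval r)) := by
  let zq : Q := (0, 0, 0)
  let oq : Q := (1, 0, 0)
  have hzq : qval zq = 0 := by simp [qval, zq]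
  have hoq : qval oq = 1 := by simp [qval, oq]
  let rq : Q → Q := fun s => qsub (qinv s) (qinv (qsub oq s))
  have hrq : Primrec rq := by fun_prop
  have hrv : ∀ s, qval (rq s) = (qval s)⁻¹ - (1 - qval s)⁻¹ := by
    intro s; simp [rq, hoq]
  have hE : PRReal (fun s : Q => Real.exp (-|qval (rq s)|)) := prreal_exp_neg_abs.comp hrq
  have hI : PRReal (fun s : Q => 1 / (1 + Real.exp (-|qval (rq s)|))) :=
    hE.inv_one_add fun s => (Real.exp_pos _).le
  have hJ : PRReal (fun s : Q => 1 - 1 / (1 + Real.exp (-|qval (rq s)|))) := PRReal.one.sub hI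
  have h3 := PRReal.ite_le (f := fun s : Q => qleL (rq s) zq) (g := fun s : Q => qleR (rq s) zq)
    (by fun_prop) (by fun_prop) hI hJ
  have h2 := PRReal.ite_le (f := fun s : Q => qleL oq s) (g := fun s : Q => qleR oq s)
    (by fun_prop) (by fun_prop) PRReal.one h3
  have h1 := PRReal.ite_le (f := fun s : Q => qleL s zq) (g := fun s : Q => qleR s zq)
    (by fun_prop) (by fun_prop) PRReal.zero h2
  refine h1.of_eq fun s => ?_
  simp only [qle_iff, hzq, hoq]
  split_ifs with a b c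
  · exact (Real.smoothTransition.zero_of_nonpos a).symm
  · exact (Real.smoothTransition.one_of_one_le b).symm
  · rw [smoothTransition_mid (not_le.1 a) (not_le.1 b), abs_of_nonpos c, neg_neg, hrv]
  · rw [smoothTransition_mid (not_le.1 a) (not_le.1 b), abs_of_pos (not_le.1 c), hrv]
    have hp := Real.exp_pos ((qval s)⁻¹ - (1 - qval s)⁻¹)
    rw [Real.exp_neg]
    field_simp
    ring

end Vale.Agent.Lib.P113
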